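import Vale.Agent.P011.H138.Rl.Nrm

/-!
The elements of the group which are close to the identity at one embedding are close to the
identity at all the embeddings over the same place of `k`.
-/

set_option linter.unusedSimpArgs false

open NormedSpace Filter Topology NumberField

namespace Vale.Agent.P011.H138.Rl

open Vale.Agent.P011.MPQ Vale.Agent.P011.D4 Vale.Agent.P011.D4.Oct Vale.Agent.P011.E6
open Vale.Agent.P011.E6H Vale.Agent.P011.H261.Rl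
open scoped ComplexConjugate

variable {k E : Type} [Field k] [Field E] [Algebra k E] {ρ σ : E ≃ₐ[k] E} {lam : Eˣ}
  {g : Fin 3 → Eˣ} {a b c : kˣ}

/-- The map is close to the identity at the embedding. -/
def Nr (w : E →+* ℂ) (t : ℝ) (h : AlbL E a b c → AlbL E a b c) : Prop :=
  ∀ x, nm w (h x - x) ≤ t * nm w x

theorem nm_neg (w : E →+* ℂ) (x : AlbL E a b c) : nm w (-x) = nm w x := by
  have h := nm_smul w (-1 : E) x
  rwa [neg_one_smul, map_neg, map_one, _root_.norm_neg, NormOneClass.norm_one, one_mul] at h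

theorem nm_sub_comm (w : E →+* ℂ) (x y : AlbL E a b c) : nm w (x - y) = nm w (y - x) := by
  rw [← nm_neg, neg_sub]

section rho

theorem qnm_map {τ : E ≃ₐ[k] E} {w w' : E →+* ℂ} (h : ∀ x, w' x = w (τ x))
    (x : Qt (up E a) (up E b)) : qnm w (qmap τ x) = qnm w' x := by
  unfold qnm
  simp only [h]
  rfl

theorem nm_ph {w w' : E →+* ℂ} (h : ∀ x, w' x = w (ρ x)) (x : AlbL E a b c) :
    nm w (ph ρ lam x) = ‖w lam‖⁻¹ * ‖w' x.d3‖ + ‖w lam‖ * ‖w' x.d1‖ + ‖w lam‖ * ‖w' x.d2‖ +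
      (‖w lam‖ * qnm w' x.x3.fst + ‖w lam‖ * qnm w' x.x3.snd) +
      (qnm w' x.x1.fst + qnm w' x.x1.snd) + (qnm w' x.x2.fst + qnm w' x.x2.snd) := by
  have e1 : ‖w ((lam⁻¹ : Eˣ) * ρ x.d3)‖ = ‖w lam‖⁻¹ * ‖w' x.d3‖ := by
    rw [map_mul, _root_.norm_mul, h, Units.val_inv_eq_inv_val, map_inv₀, norm_inv]
  have e2 : ‖w ((lam : E) * ρ x.d1)‖ = ‖w lam‖ * ‖w' x.d1‖ := by
    rw [map_mul, _root_.norm_mul, h]
  have e3 : ‖w ((lam : E) * ρ x.d2)‖ = ‖w lam‖ * ‖w' x.d2‖ := by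
    rw [map_mul, _root_.norm_mul, h]
  have e4 : qnm w ((lam : E) • qmap ρ x.x3.fst) = ‖w lam‖ * qnm w' x.x3.fst := by
    rw [qnm_smul, qnm_map h]
  have e5 : qnm w ((lam : E) • qmap ρ x.x3.snd) = ‖w lam‖ * qnm w' x.x3.snd := by
    rw [qnm_smul, qnm_map h]
  have e6 := qnm_map h x.x1.fst
  have e7 := qnm_map h x.x1.snd
  have e8 := qnm_map h x.x2.fst
  have e9 := qnm_map h x.x2.snd
  rw [← e1, ← e2, ← e3, ← e4, ← e5, ← e6, ← e7, ← e8, ← e9]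
  rfl

theorem ph_sub (x y : AlbL E a b c) : ph ρ lam (x - y) = ph ρ lam x - ph ρ lam y := by
  have hq : ∀ u v : Qt (up E a) (up E b), qmap ρ (u - v) = qmap ρ u - qmap ρ v := by
    intro u v
    refine QuaternionAlgebra.ext ?_ ?_ ?_ ?_ <;> exact map_sub ρ _ _
  have ho : ∀ u v : OctL E a b c, omap ρ (u - v) = omap ρ u - omap ρ v := by
    intro u v
    ext1
    · exact hq _ _
    · exact hq _ _
  ext1
  · change (lam⁻¹ : Eˣ) * ρ (x.d3 - y.d3) = (lam⁻¹ : Eˣ) * ρ x.d3 - (lam⁻¹ : Eˣ) * ρ y.d3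
    rw [map_sub, mul_sub]
  · change (lam : E) * ρ (x.d1 - y.d1) = (lam : E) * ρ x.d1 - (lam : E) * ρ y.d1
    rw [map_sub, mul_sub]
  · change (lam : E) * ρ (x.d2 - y.d2) = (lam : E) * ρ x.d2 - (lam : E) * ρ y.d2
    rw [map_sub, mul_sub]
  · change (lam : E) • omap ρ (x.x3 - y.x3) = (lam : E) • omap ρ x.x3 - (lam : E) • omap ρ y.x3
    rw [ho, smul_sub]
  · exact ho _ _
  · exact ho _ _

theorem near_rho {w w' : E →+* ℂ} (h : ∀ x, w' x = w (ρ x)) :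
    ∃ C : ℝ, 0 < C ∧ ∀ f : AlbL E a b c → AlbL E a b c,
      (∀ x, f (ph ρ lam x) = ph ρ lam (f x)) → ∀ t, 0 ≤ t → Nr w t f → Nr w' (C * t) f := by
  have hA : 0 < ‖w lam‖ := norm_pos_iff.2 ((map_ne_zero w).2 lam.ne_zero)
  obtain ⟨A, hAe⟩ : ∃ A, A = ‖w lam‖ := ⟨_, rfl⟩
  rw [← hAe] at hA
  have hI : 0 < A⁻¹ := inv_pos.2 hA
  obtain ⟨C, hC⟩ : ∃ C, C = 1 + A + A⁻¹ := ⟨_, rfl⟩
  have hC0 : 0 < C := by rw [hC]; positivity
  have c1 : ∀ D : ℝ, 0 ≤ D → A⁻¹ * D ≤ C * D := fun D hD =>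
    mul_le_mul_of_nonneg_right (by rw [hC]; linarith) hD
  have c2 : ∀ D : ℝ, 0 ≤ D → A * D ≤ C * D := fun D hD =>
    mul_le_mul_of_nonneg_right (by rw [hC]; linarith) hD
  have c3 : ∀ D : ℝ, 0 ≤ D → D ≤ C * D := fun D hD =>
    le_mul_of_one_le_left hD (by rw [hC]; linarith)
  have c4 : ∀ D : ℝ, 0 ≤ D → D ≤ C * (A⁻¹ * D) := fun D hD => by
    have h1 := c2 (A⁻¹ * D) (mul_nonneg hI.le hD)
    rwa [← mul_assoc, mul_inv_cancel₀ hA.ne', one_mul] at h1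
  have c5 : ∀ D : ℝ, 0 ≤ D → D ≤ C * (A * D) := fun D hD => by
    have h1 := c1 (A * D) (mul_nonneg hA.le hD)
    rwa [← mul_assoc, inv_mul_cancel₀ hA.ne', one_mul] at h1
  have up1 : ∀ x : AlbL E a b c, nm w (ph ρ lam x) ≤ C * nm w' x := by
    intro x
    rw [nm_ph h, ← hAe]
    unfold nm
    have k1 := c1 _ (norm_nonneg (w' x.d3))
    have k2 := c2 _ (norm_nonneg (w' x.d1))
    have k3 := c2 _ (norm_nonneg (w' x.d2))
    have k4 := c2 _ (qnm_nonneg w' x.x3.fst)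
    have k5 := c2 _ (qnm_nonneg w' x.x3.snd)
    have k6 := c3 _ (qnm_nonneg w' x.x1.fst)
    have k7 := c3 _ (qnm_nonneg w' x.x1.snd)
    have k8 := c3 _ (qnm_nonneg w' x.x2.fst)
    have k9 := c3 _ (qnm_nonneg w' x.x2.snd)
    rw [mul_add, mul_add, mul_add, mul_add, mul_add, mul_add, mul_add, mul_add]
    linarith
  have lo1 : ∀ x : AlbL E a b c, nm w' x ≤ C * nm w (ph ρ lam x) := by
    intro x
    rw [nm_ph h, ← hAe]
    unfold nm
    have k1 := c4 _ (norm_nonneg (w' x.d3))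
    have k2 := c5 _ (norm_nonneg (w' x.d1))
    have k3 := c5 _ (norm_nonneg (w' x.d2))
    have k4 := c5 _ (qnm_nonneg w' x.x3.fst)
    have k5 := c5 _ (qnm_nonneg w' x.x3.snd)
    have k6 := c3 _ (qnm_nonneg w' x.x1.fst)
    have k7 := c3 _ (qnm_nonneg w' x.x1.snd)
    have k8 := c3 _ (qnm_nonneg w' x.x2.fst)
    have k9 := c3 _ (qnm_nonneg w' x.x2.snd)
    rw [mul_add, mul_add, mul_add, mul_add, mul_add, mul_add, mul_add, mul_add]
    linarith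
  refine ⟨C * C, mul_pos hC0 hC0, fun f hf t ht hn x => ?_⟩
  have h1 := hn (ph ρ lam x)
  rw [hf, ← ph_sub] at h1
  calc nm w' (f x - x) ≤ C * nm w (ph ρ lam (f x - x)) := lo1 _
    _ ≤ C * (t * nm w (ph ρ lam x)) := mul_le_mul_of_nonneg_left h1 hC0.le
    _ ≤ C * (t * (C * nm w' x)) :=
        mul_le_mul_of_nonneg_left (mul_le_mul_of_nonneg_left (up1 x) ht) hC0.le
    _ = C * C * t * nm w' x := by ring

end rho

section sigma

/-- The polar form of the norm of quaternions. -/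
def qb {F : Type} [Field F] {a b : Fˣ} (x y : Qt a b) : F :=
  2 * (x.re * y.re - a * x.imI * y.imI - b * x.imJ * y.imJ + a * b * x.imK * y.imK)

theorem her_eq (x y : AlbL E a b c) : her σ g x y =
    (g 0 : E) ^ 2 * x.d1 * σ y.d1 + (g 1 : E) ^ 2 * x.d2 * σ y.d2 +
      (g 2 : E) ^ 2 * x.d3 * σ y.d3 +
      ((g 1 : E) * g 2 * qb x.x1.fst (qmap σ y.x1.fst) +
        -(up E c : E) * (g 1 * g 2) * qb x.x1.snd (qmap σ y.x1.snd)) +
      ((g 2 : E) * g 0 * qb x.x2.fst (qmap σ y.x2.fst) +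
        -(up E c : E) * (g 2 * g 0) * qb x.x2.snd (qmap σ y.x2.snd)) +
      ((g 0 : E) * g 1 * qb x.x3.fst (qmap σ y.x3.fst) +
        -(up E c : E) * (g 0 * g 1) * qb x.x3.snd (qmap σ y.x3.snd)) := by
  simp only [her, Alb.tf, Alb.wt, bil_eq, qb, amap, omap, qmap, fst_smul, snd_smul,
    QuaternionAlgebra.re_smul, QuaternionAlgebra.imI_smul, QuaternionAlgebra.imJ_smul,
    QuaternionAlgebra.imK_smul, smul_eq_mul]
  ring

theorem her_sub_left (x x' y : AlbL E a b c) :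
    her σ g (x - x') y = her σ g x y - her σ g x' y := by
  simp only [her_eq, qb, Alb.d1_sub, Alb.d2_sub, Alb.d3_sub, Alb.x1_sub, Alb.x2_sub, Alb.x3_sub,
    fst_sub, snd_sub, QuaternionAlgebra.re_sub, QuaternionAlgebra.imI_sub,
    QuaternionAlgebra.imJ_sub, QuaternionAlgebra.imK_sub]
  ring

theorem her_sub_right (x y y' : AlbL E a b c) :
    her σ g x (y - y') = her σ g x y - her σ g x y' := by
  simp only [her_eq, qb, qmap, Alb.d1_sub, Alb.d2_sub, Alb.d3_sub, Alb.x1_sub, Alb.x2_sub,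
    Alb.x3_sub, fst_sub, snd_sub, QuaternionAlgebra.re_sub, QuaternionAlgebra.imI_sub,
    QuaternionAlgebra.imJ_sub, QuaternionAlgebra.imK_sub, map_sub]
  ring

theorem qb_le {w w' : E →+* ℂ} (h : ∀ x, w' x = w (σ x)) (x y : Qt (up E a) (up E b)) :
    ‖w (qb x (qmap σ y))‖ ≤
      2 * (1 + ‖w (up E a : E)‖ + ‖w (up E b : E)‖ + ‖w (up E a : E)‖ * ‖w (up E b : E)‖) *
        (qnm w x * qnm w' y) := by
  obtain ⟨A, hA⟩ : ∃ A, A = ‖w (up E a : E)‖ := ⟨_, rfl⟩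
  obtain ⟨B, hB⟩ : ∃ B, B = ‖w (up E b : E)‖ := ⟨_, rfl⟩
  have hA0 : 0 ≤ A := by rw [hA]; exact norm_nonneg _
  have hB0 : 0 ≤ B := by rw [hB]; exact norm_nonneg _
  have hx := qnm_nonneg w x
  have hy := qnm_nonneg w' y
  have x1 : ‖w x.re‖ ≤ qnm w x := by
    unfold qnm; linarith [norm_nonneg (w x.imI), norm_nonneg (w x.imJ), norm_nonneg (w x.imK)]
  have x2 : ‖w x.imI‖ ≤ qnm w x := by
    unfold qnm; linarith [norm_nonneg (w x.re), norm_nonneg (w x.imJ), norm_nonneg (w x.imK)]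
  have x3 : ‖w x.imJ‖ ≤ qnm w x := by
    unfold qnm; linarith [norm_nonneg (w x.re), norm_nonneg (w x.imI), norm_nonneg (w x.imK)]
  have x4 : ‖w x.imK‖ ≤ qnm w x := by
    unfold qnm; linarith [norm_nonneg (w x.re), norm_nonneg (w x.imI), norm_nonneg (w x.imJ)]
  have y1 : ‖w' y.re‖ ≤ qnm w' y := by
    unfold qnm; linarith [norm_nonneg (w' y.imI), norm_nonneg (w' y.imJ), norm_nonneg (w' y.imK)]
  have y2 : ‖w' y.imI‖ ≤ qnm w' y := by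
    unfold qnm; linarith [norm_nonneg (w' y.re), norm_nonneg (w' y.imJ), norm_nonneg (w' y.imK)]
  have y3 : ‖w' y.imJ‖ ≤ qnm w' y := by
    unfold qnm; linarith [norm_nonneg (w' y.re), norm_nonneg (w' y.imI), norm_nonneg (w' y.imK)]
  have y4 : ‖w' y.imK‖ ≤ qnm w' y := by
    unfold qnm; linarith [norm_nonneg (w' y.re), norm_nonneg (w' y.imI), norm_nonneg (w' y.imJ)]
  have e : w (qb x (qmap σ y)) = 2 * (w x.re * w' y.re - w (up E a : E) * w x.imI * w' y.imI -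
      w (up E b : E) * w x.imJ * w' y.imJ +
      w (up E a : E) * w (up E b : E) * w x.imK * w' y.imK) := by
    simp only [qb, qmap, map_mul, map_add, map_sub, h, map_ofNat]
  rw [e, ← hA, ← hB, _root_.norm_mul, Complex.norm_ofNat]
  have f1 : ‖w x.re * w' y.re‖ ≤ qnm w x * qnm w' y := by
    rw [_root_.norm_mul]
    exact mul_le_mul x1 y1 (norm_nonneg _) hx
  have f2 : ‖w (up E a : E) * w x.imI * w' y.imI‖ ≤ A * (qnm w x * qnm w' y) := by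
    rw [_root_.norm_mul, _root_.norm_mul, ← hA, mul_assoc]
    exact mul_le_mul_of_nonneg_left (mul_le_mul x2 y2 (norm_nonneg _) hx) hA0
  have f3 : ‖w (up E b : E) * w x.imJ * w' y.imJ‖ ≤ B * (qnm w x * qnm w' y) := by
    rw [_root_.norm_mul, _root_.norm_mul, ← hB, mul_assoc]
    exact mul_le_mul_of_nonneg_left (mul_le_mul x3 y3 (norm_nonneg _) hx) hB0
  have f4 : ‖w (up E a : E) * w (up E b : E) * w x.imK * w' y.imK‖ ≤
      A * B * (qnm w x * qnm w' y) := by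
    rw [_root_.norm_mul, _root_.norm_mul, _root_.norm_mul, ← hA, ← hB, mul_assoc (A * B)]
    exact mul_le_mul_of_nonneg_left (mul_le_mul x4 y4 (norm_nonneg _) hx) (mul_nonneg hA0 hB0)
  have t1 := norm_add_le (w x.re * w' y.re - w (up E a : E) * w x.imI * w' y.imI -
      w (up E b : E) * w x.imJ * w' y.imJ) (w (up E a : E) * w (up E b : E) * w x.imK * w' y.imK)
  have t2 := norm_sub_le (w x.re * w' y.re - w (up E a : E) * w x.imI * w' y.imI)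
      (w (up E b : E) * w x.imJ * w' y.imJ)
  have t3 := norm_sub_le (w x.re * w' y.re) (w (up E a : E) * w x.imI * w' y.imI)
  have : ‖w x.re * w' y.re - w (up E a : E) * w x.imI * w' y.imI -
      w (up E b : E) * w x.imJ * w' y.imJ + w (up E a : E) * w (up E b : E) * w x.imK * w' y.imK‖ ≤
      (1 + A + B + A * B) * (qnm w x * qnm w' y) := by
    have r : (1 + A + B + A * B) * (qnm w x * qnm w' y) = qnm w x * qnm w' y +
      A * (qnm w x * qnm w' y) + B * (qnm w x * qnm w' y) + A * B * (qnm w x * qnm w' y) := by ring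
    rw [r]
    linarith
  linarith

theorem her_le {w w' : E →+* ℂ} (h : ∀ x, w' x = w (σ x)) :
    ∃ B : ℝ, 0 < B ∧ ∀ x y : AlbL E a b c, ‖w (her σ g x y)‖ ≤ B * (nm w x * nm w' y) := by
  obtain ⟨K, hK⟩ : ∃ K, K = 2 * (1 + ‖w (up E a : E)‖ + ‖w (up E b : E)‖ +
    ‖w (up E a : E)‖ * ‖w (up E b : E)‖) := ⟨_, rfl⟩
  have hK0 : 0 ≤ K := by rw [hK]; positivity
  have part : ∀ (u v p q : ℝ) (s t : ℝ), 0 ≤ s → 0 ≤ t → 0 ≤ p → 0 ≤ q → p ≤ u → q ≤ v →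
      0 ≤ u → s * (t * (p * q)) ≤ s * t * (u * v) := by
    intro u v p q s t hs ht hp hq hpu hqv hu
    have h1 : p * q ≤ u * v := mul_le_mul hpu hqv hq hu
    calc s * (t * (p * q)) ≤ s * (t * (u * v)) :=
          mul_le_mul_of_nonneg_left (mul_le_mul_of_nonneg_left h1 ht) hs
      _ = s * t * (u * v) := by ring
  refine ⟨1 + ‖w (g 0 : E)‖ ^ 2 + ‖w (g 1 : E)‖ ^ 2 + ‖w (g 2 : E)‖ ^ 2 +
    (‖w ((g 1 : E) * g 2)‖ * K + ‖w (-(up E c : E) * (g 1 * g 2))‖ * K) +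
    (‖w ((g 2 : E) * g 0)‖ * K + ‖w (-(up E c : E) * (g 2 * g 0))‖ * K) +
    (‖w ((g 0 : E) * g 1)‖ * K + ‖w (-(up E c : E) * (g 0 * g 1))‖ * K), by positivity,
    fun x y => ?_⟩
  have d1 := norm_nonneg (w x.d1)
  have d2 := norm_nonneg (w x.d2)
  have d3 := norm_nonneg (w x.d3)
  have q1 := qnm_nonneg w x.x1.fst
  have q2 := qnm_nonneg w x.x1.snd
  have q3 := qnm_nonneg w x.x2.fst
  have q4 := qnm_nonneg w x.x2.snd
  have q5 := qnm_nonneg w x.x3.fst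
  have q6 := qnm_nonneg w x.x3.snd
  have D1 := norm_nonneg (w' y.d1)
  have D2 := norm_nonneg (w' y.d2)
  have D3 := norm_nonneg (w' y.d3)
  have Q1 := qnm_nonneg w' y.x1.fst
  have Q2 := qnm_nonneg w' y.x1.snd
  have Q3 := qnm_nonneg w' y.x2.fst
  have Q4 := qnm_nonneg w' y.x2.snd
  have Q5 := qnm_nonneg w' y.x3.fst
  have Q6 := qnm_nonneg w' y.x3.snd
  have hu := nm_nonneg w x
  have hv := nm_nonneg w' y
  have ex : nm w x = ‖w x.d1‖ + ‖w x.d2‖ + ‖w x.d3‖ + (qnm w x.x1.fst + qnm w x.x1.snd) +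
    (qnm w x.x2.fst + qnm w x.x2.snd) + (qnm w x.x3.fst + qnm w x.x3.snd) := rfl
  have ey : nm w' y = ‖w' y.d1‖ + ‖w' y.d2‖ + ‖w' y.d3‖ + (qnm w' y.x1.fst + qnm w' y.x1.snd) +
    (qnm w' y.x2.fst + qnm w' y.x2.snd) + (qnm w' y.x3.fst + qnm w' y.x3.snd) := rfl
  obtain ⟨u, hu'⟩ : ∃ u, u = nm w x := ⟨_, rfl⟩
  obtain ⟨v, hv'⟩ : ∃ v, v = nm w' y := ⟨_, rfl⟩
  have s1 : ‖w ((g 0 : E) ^ 2 * x.d1 * σ y.d1)‖ ≤ ‖w (g 0 : E)‖ ^ 2 * (u * v) := by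
    rw [map_mul, map_mul, map_pow, _root_.norm_mul, _root_.norm_mul, norm_pow, ← h, mul_assoc]
    exact mul_le_mul_of_nonneg_left (mul_le_mul (by linarith) (by linarith) D1 (by linarith))
      (by positivity)
  have s2 : ‖w ((g 1 : E) ^ 2 * x.d2 * σ y.d2)‖ ≤ ‖w (g 1 : E)‖ ^ 2 * (u * v) := by
    rw [map_mul, map_mul, map_pow, _root_.norm_mul, _root_.norm_mul, norm_pow, ← h, mul_assoc]
    exact mul_le_mul_of_nonneg_left (mul_le_mul (by linarith) (by linarith) D2 (by linarith))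
      (by positivity)
  have s3 : ‖w ((g 2 : E) ^ 2 * x.d3 * σ y.d3)‖ ≤ ‖w (g 2 : E)‖ ^ 2 * (u * v) := by
    rw [map_mul, map_mul, map_pow, _root_.norm_mul, _root_.norm_mul, norm_pow, ← h, mul_assoc]
    exact mul_le_mul_of_nonneg_left (mul_le_mul (by linarith) (by linarith) D3 (by linarith))
      (by positivity)
  have blk : ∀ (κ : E) (p q : Qt (up E a) (up E b)), qnm w p ≤ u → qnm w' q ≤ v →
      ‖w (κ * qb p (qmap σ q))‖ ≤ ‖w κ‖ * K * (u * v) := by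
    intro κ p q hp hq
    have h1 := qb_le h p q
    rw [← hK] at h1
    rw [map_mul, _root_.norm_mul]
    refine (mul_le_mul_of_nonneg_left h1 (norm_nonneg (w κ))).trans ?_
    exact part u v _ _ _ _ (norm_nonneg _) hK0 (qnm_nonneg w p) (qnm_nonneg w' q) hp hq
      ((qnm_nonneg w p).trans hp)
  have b1 := blk ((g 1 : E) * g 2) x.x1.fst y.x1.fst (by linarith) (by linarith)
  have b2 := blk (-(up E c : E) * (g 1 * g 2)) x.x1.snd y.x1.snd (by linarith) (by linarith)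
  have b3 := blk ((g 2 : E) * g 0) x.x2.fst y.x2.fst (by linarith) (by linarith)
  have b4 := blk (-(up E c : E) * (g 2 * g 0)) x.x2.snd y.x2.snd (by linarith) (by linarith)
  have b5 := blk ((g 0 : E) * g 1) x.x3.fst y.x3.fst (by linarith) (by linarith)
  have b6 := blk (-(up E c : E) * (g 0 * g 1)) x.x3.snd y.x3.snd (by linarith) (by linarith)
  have huv : 0 ≤ u * v := mul_nonneg (by linarith) (by linarith)
  rw [her_eq, ← hu', ← hv']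
  simp only [map_add]
  refine (norm_add_le _ _).trans ?_
  have n1 := norm_add_le (w ((g 0 : E) * g 1 * qb x.x3.fst (qmap σ y.x3.fst)))
    (w (-(up E c : E) * (g 0 * g 1) * qb x.x3.snd (qmap σ y.x3.snd)))
  have n2 := norm_add_le (w ((g 2 : E) * g 0 * qb x.x2.fst (qmap σ y.x2.fst)))
    (w (-(up E c : E) * (g 2 * g 0) * qb x.x2.snd (qmap σ y.x2.snd)))
  have n3 := norm_add_le (w ((g 1 : E) * g 2 * qb x.x1.fst (qmap σ y.x1.fst)))
    (w (-(up E c : E) * (g 1 * g 2) * qb x.x1.snd (qmap σ y.x1.snd)))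
  have n4 := norm_add_le (w ((g 0 : E) ^ 2 * x.d1 * σ y.d1) + w ((g 1 : E) ^ 2 * x.d2 * σ y.d2) +
    w ((g 2 : E) ^ 2 * x.d3 * σ y.d3) + (w ((g 1 : E) * g 2 * qb x.x1.fst (qmap σ y.x1.fst)) +
    w (-(up E c : E) * (g 1 * g 2) * qb x.x1.snd (qmap σ y.x1.snd))))
    (w ((g 2 : E) * g 0 * qb x.x2.fst (qmap σ y.x2.fst)) +
      w (-(up E c : E) * (g 2 * g 0) * qb x.x2.snd (qmap σ y.x2.snd)))
  have n5 := norm_add_le (w ((g 0 : E) ^ 2 * x.d1 * σ y.d1) + w ((g 1 : E) ^ 2 * x.d2 * σ y.d2) +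
    w ((g 2 : E) ^ 2 * x.d3 * σ y.d3)) (w ((g 1 : E) * g 2 * qb x.x1.fst (qmap σ y.x1.fst)) +
    w (-(up E c : E) * (g 1 * g 2) * qb x.x1.snd (qmap σ y.x1.snd)))
  have n6 := norm_add_le (w ((g 0 : E) ^ 2 * x.d1 * σ y.d1) + w ((g 1 : E) ^ 2 * x.d2 * σ y.d2))
    (w ((g 2 : E) ^ 2 * x.d3 * σ y.d3))
  have n7 := norm_add_le (w ((g 0 : E) ^ 2 * x.d1 * σ y.d1)) (w ((g 1 : E) ^ 2 * x.d2 * σ y.d2))
  simp only [add_mul, one_mul]
  linarith

theorem q_rec {w w' : E →+* ℂ} (h : ∀ x, w' x = w (σ x)) {κ : E} (hκ : κ ≠ 0)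
    (p : Qt (up E a) (up E b)) {t : ℝ}
    (ht : ∀ q : Qt (up E a) (up E b), ‖w (κ * qb q (qmap σ p))‖ ≤ t * qnm w q) :
    qnm w' p ≤ (‖w κ‖⁻¹ * (1 + ‖w (up E a : E)‖⁻¹ + ‖w (up E b : E)‖⁻¹ +
      ‖w (up E a : E)‖⁻¹ * ‖w (up E b : E)‖⁻¹)) * t := by
  have hA : 0 < ‖w (up E a : E)‖ := norm_pos_iff.2 ((map_ne_zero w).2 (up E a).ne_zero)
  have hB : 0 < ‖w (up E b : E)‖ := norm_pos_iff.2 ((map_ne_zero w).2 (up E b).ne_zero)
  have hK : 0 < ‖w κ‖ := norm_pos_iff.2 ((map_ne_zero w).2 hκ)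
  obtain ⟨A, hAe⟩ : ∃ A, A = ‖w (up E a : E)‖ := ⟨_, rfl⟩
  obtain ⟨B, hBe⟩ : ∃ B, B = ‖w (up E b : E)‖ := ⟨_, rfl⟩
  obtain ⟨K, hKe⟩ : ∃ K, K = ‖w κ‖ := ⟨_, rfl⟩
  have q0 : qnm w (⟨1, 0, 0, 0⟩ : Qt (up E a) (up E b)) = 1 := by simp [qnm]
  have q1 : qnm w (⟨0, 1, 0, 0⟩ : Qt (up E a) (up E b)) = 1 := by simp [qnm]
  have q2 : qnm w (⟨0, 0, 1, 0⟩ : Qt (up E a) (up E b)) = 1 := by simp [qnm]
  have q3 : qnm w (⟨0, 0, 0, 1⟩ : Qt (up E a) (up E b)) = 1 := by simp [qnm]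
  have t0 := ht ⟨1, 0, 0, 0⟩
  have t1 := ht ⟨0, 1, 0, 0⟩
  have t2 := ht ⟨0, 0, 1, 0⟩
  have t3 := ht ⟨0, 0, 0, 1⟩
  rw [q0, mul_one] at t0
  rw [q1, mul_one] at t1
  rw [q2, mul_one] at t2
  rw [q3, mul_one] at t3
  have e0 : ‖w (κ * qb (⟨1, 0, 0, 0⟩ : Qt (up E a) (up E b)) (qmap σ p))‖ =
      2 * (K * ‖w' p.re‖) := by
    simp only [qb, qmap, map_mul, map_add, map_sub, map_one, map_zero, mul_zero, zero_mul,
      sub_zero, add_zero, one_mul, map_ofNat, _root_.norm_mul, Complex.norm_ofNat, ← h, hKe]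
    ring
  have e1 : ‖w (κ * qb (⟨0, 1, 0, 0⟩ : Qt (up E a) (up E b)) (qmap σ p))‖ =
      2 * (K * (A * ‖w' p.imI‖)) := by
    simp only [qb, qmap, map_mul, map_add, map_sub, map_neg, map_one, map_zero, mul_zero,
      zero_mul, sub_zero, add_zero, one_mul, mul_one, zero_sub, map_ofNat, _root_.norm_mul,
      Complex.norm_ofNat, _root_.norm_neg, ← h, hKe, hAe]
    ring
  have e2 : ‖w (κ * qb (⟨0, 0, 1, 0⟩ : Qt (up E a) (up E b)) (qmap σ p))‖ =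
      2 * (K * (B * ‖w' p.imJ‖)) := by
    simp only [qb, qmap, map_mul, map_add, map_sub, map_neg, map_one, map_zero, mul_zero,
      zero_mul, sub_zero, add_zero, one_mul, mul_one, zero_sub, map_ofNat, _root_.norm_mul,
      Complex.norm_ofNat, _root_.norm_neg, ← h, hKe, hBe]
    ring
  have e3 : ‖w (κ * qb (⟨0, 0, 0, 1⟩ : Qt (up E a) (up E b)) (qmap σ p))‖ =
      2 * (K * (A * B * ‖w' p.imK‖)) := by
    simp only [qb, qmap, map_mul, map_add, map_sub, map_one, map_zero, mul_zero, zero_mul,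
      sub_zero, add_zero, zero_add, one_mul, mul_one, map_ofNat, _root_.norm_mul,
      Complex.norm_ofNat, _root_.norm_neg, ← h, hKe, hAe, hBe]
    ring
  rw [e0] at t0
  rw [e1] at t1
  rw [e2] at t2
  rw [e3] at t3
  rw [← hAe, ← hBe, ← hKe]
  rw [← hAe] at hA
  rw [← hBe] at hB
  rw [← hKe] at hK
  have r : ∀ D X : ℝ, 0 < D → 0 ≤ X → 2 * (D * X) ≤ t → X ≤ D⁻¹ * t := by
    intro D X hD hX h1
    rw [← div_eq_inv_mul, le_div_iff₀ hD]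
    nlinarith [mul_nonneg hD.le hX]
  have r0 := r K ‖w' p.re‖ hK (norm_nonneg _) t0
  have r1 := r (K * A) ‖w' p.imI‖ (mul_pos hK hA) (norm_nonneg _) (by rw [mul_assoc]; exact t1)
  have r2 := r (K * B) ‖w' p.imJ‖ (mul_pos hK hB) (norm_nonneg _) (by rw [mul_assoc]; exact t2)
  have r3 := r (K * (A * B)) ‖w' p.imK‖ (mul_pos hK (mul_pos hA hB)) (norm_nonneg _)
    (by rw [mul_assoc]; exact t3)
  rw [mul_inv] at r1 r2 r3
  rw [mul_inv] at r3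
  unfold qnm
  have e : K⁻¹ * (1 + A⁻¹ + B⁻¹ + A⁻¹ * B⁻¹) * t = K⁻¹ * t + K⁻¹ * A⁻¹ * t + K⁻¹ * B⁻¹ * t +
    K⁻¹ * (A⁻¹ * B⁻¹) * t := by ring
  rw [e]
  linarith

theorem her_rec {w w' : E →+* ℂ} (h : ∀ x, w' x = w (σ x)) :
    ∃ C : ℝ, 0 < C ∧ ∀ (z : AlbL E a b c) (t : ℝ),
      (∀ x, ‖w (her σ g x z)‖ ≤ t * nm w x) → nm w' z ≤ C * t := by
  obtain ⟨L, hL⟩ : ∃ L, L = 1 + ‖w (up E a : E)‖⁻¹ + ‖w (up E b : E)‖⁻¹ +
      ‖w (up E a : E)‖⁻¹ * ‖w (up E b : E)‖⁻¹ := ⟨_, rfl⟩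
  have hL0 : 0 ≤ L := by rw [hL]; positivity
  refine ⟨1 + (‖w (g 0 : E)‖ ^ 2)⁻¹ + (‖w (g 1 : E)‖ ^ 2)⁻¹ + (‖w (g 2 : E)‖ ^ 2)⁻¹ +
    (‖w ((g 1 : E) * g 2)‖⁻¹ * L + ‖w (-(up E c : E) * (g 1 * g 2))‖⁻¹ * L) +
    (‖w ((g 2 : E) * g 0)‖⁻¹ * L + ‖w (-(up E c : E) * (g 2 * g 0))‖⁻¹ * L) +
    (‖w ((g 0 : E) * g 1)‖⁻¹ * L + ‖w (-(up E c : E) * (g 0 * g 1))‖⁻¹ * L), by positivity,
    fun z t ht => ?_⟩
  have g0 := (g 0).ne_zero
  have g1 := (g 1).ne_zero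
  have g2 := (g 2).ne_zero
  have hc := (up E c).ne_zero
  have hG : ∀ i, 0 < ‖w (g i : E)‖ ^ 2 := fun i => by
    have := norm_pos_iff.2 ((map_ne_zero w).2 (g i).ne_zero)
    positivity
  have n0 : nm w (⟨1, 0, 0, 0, 0, 0⟩ : AlbL E a b c) = 1 := by simp [nm, qnm]
  have n1 : nm w (⟨0, 1, 0, 0, 0, 0⟩ : AlbL E a b c) = 1 := by simp [nm, qnm]
  have n2 : nm w (⟨0, 0, 1, 0, 0, 0⟩ : AlbL E a b c) = 1 := by simp [nm, qnm]
  have t0 := ht ⟨1, 0, 0, 0, 0, 0⟩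
  have t1 := ht ⟨0, 1, 0, 0, 0, 0⟩
  have t2 := ht ⟨0, 0, 1, 0, 0, 0⟩
  rw [n0, mul_one] at t0
  rw [n1, mul_one] at t1
  rw [n2, mul_one] at t2
  have e0 : ‖w (her σ g (⟨1, 0, 0, 0, 0, 0⟩ : AlbL E a b c) z)‖ =
      ‖w (g 0 : E)‖ ^ 2 * ‖w' z.d1‖ := by
    rw [her_eq]
    simp [qb, h]
  have e1 : ‖w (her σ g (⟨0, 1, 0, 0, 0, 0⟩ : AlbL E a b c) z)‖ =
      ‖w (g 1 : E)‖ ^ 2 * ‖w' z.d2‖ := by
    rw [her_eq]
    simp [qb, h]
  have e2 : ‖w (her σ g (⟨0, 0, 1, 0, 0, 0⟩ : AlbL E a b c) z)‖ =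
      ‖w (g 2 : E)‖ ^ 2 * ‖w' z.d3‖ := by
    rw [her_eq]
    simp [qb, h]
  rw [e0, mul_comm, ← le_div_iff₀ (hG 0), div_eq_inv_mul] at t0
  rw [e1, mul_comm, ← le_div_iff₀ (hG 1), div_eq_inv_mul] at t1
  rw [e2, mul_comm, ← le_div_iff₀ (hG 2), div_eq_inv_mul] at t2
  have m1 := q_rec h (κ := (g 1 : E) * g 2) (mul_ne_zero g1 g2) z.x1.fst (t := t) (fun q => by
    have := ht ⟨0, 0, 0, ⟨q, 0⟩, 0, 0⟩
    rw [her_eq] at this
    simpa [qb, nm, qnm] using this)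
  have m2 := q_rec h (κ := -(up E c : E) * (g 1 * g 2))
    (mul_ne_zero (neg_ne_zero.2 hc) (mul_ne_zero g1 g2)) z.x1.snd (t := t) (fun q => by
    have := ht ⟨0, 0, 0, ⟨0, q⟩, 0, 0⟩
    rw [her_eq] at this
    simpa [qb, nm, qnm] using this)
  have m3 := q_rec h (κ := (g 2 : E) * g 0) (mul_ne_zero g2 g0) z.x2.fst (t := t) (fun q => by
    have := ht ⟨0, 0, 0, 0, ⟨q, 0⟩, 0⟩
    rw [her_eq] at this
    simpa [qb, nm, qnm] using this)
  have m4 := q_rec h (κ := -(up E c : E) * (g 2 * g 0))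
    (mul_ne_zero (neg_ne_zero.2 hc) (mul_ne_zero g2 g0)) z.x2.snd (t := t) (fun q => by
    have := ht ⟨0, 0, 0, 0, ⟨0, q⟩, 0⟩
    rw [her_eq] at this
    simpa [qb, nm, qnm] using this)
  have m5 := q_rec h (κ := (g 0 : E) * g 1) (mul_ne_zero g0 g1) z.x3.fst (t := t) (fun q => by
    have := ht ⟨0, 0, 0, 0, 0, ⟨q, 0⟩⟩
    rw [her_eq] at this
    simpa [qb, nm, qnm] using this)
  have m6 := q_rec h (κ := -(up E c : E) * (g 0 * g 1))
    (mul_ne_zero (neg_ne_zero.2 hc) (mul_ne_zero g0 g1)) z.x3.snd (t := t) (fun q => by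
    have := ht ⟨0, 0, 0, 0, 0, ⟨0, q⟩⟩
    rw [her_eq] at this
    simpa [qb, nm, qnm] using this)
  rw [← hL] at m1 m2 m3 m4 m5 m6
  have ht0 : 0 ≤ t := by
    have := ht ⟨1, 0, 0, 0, 0, 0⟩
    rw [n0, mul_one] at this
    exact (norm_nonneg _).trans this
  have ez : nm w' z = ‖w' z.d1‖ + ‖w' z.d2‖ + ‖w' z.d3‖ + (qnm w' z.x1.fst + qnm w' z.x1.snd) +
    (qnm w' z.x2.fst + qnm w' z.x2.snd) + (qnm w' z.x3.fst + qnm w' z.x3.snd) := rfl
  rw [ez]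
  simp only [add_mul, one_mul]
  linarith

theorem near_sigma {w w' : E →+* ℂ} (h : ∀ x, w' x = w (σ x)) :
    ∃ C : ℝ, 0 < C ∧ ∀ f : AlbL E a b c → AlbL E a b c,
      (∀ x y, her σ g (f x) (f y) = her σ g x y) → ∀ t, 0 ≤ t → C * t ≤ 1 / 2 → Nr w t f →
        Nr w' (2 * (C * t)) f := by
  obtain ⟨B, hB0, hB⟩ := her_le (g := g) (a := a) (b := b) (c := c) h
  obtain ⟨C, hC0, hC⟩ := her_rec (g := g) (a := a) (b := b) (c := c) h
  refine ⟨C * B, mul_pos hC0 hB0, fun f hf t ht hs hn y => ?_⟩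
  have h1 : ∀ x, ‖w (her σ g x (f y - y))‖ ≤ B * t * nm w' (f y) * nm w x := by
    intro x
    have e : her σ g x (f y - y) = her σ g (x - f x) (f y) := by
      rw [her_sub_right, her_sub_left, hf]
    rw [e]
    refine (hB _ _).trans ?_
    have h2 := hn x
    rw [nm_sub_comm] at h2
    calc B * (nm w (x - f x) * nm w' (f y)) ≤ B * (t * nm w x * nm w' (f y)) :=
          mul_le_mul_of_nonneg_left (mul_le_mul_of_nonneg_right h2 (nm_nonneg _ _)) hB0.le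
      _ = B * t * nm w' (f y) * nm w x := by ring
  have h2 := hC _ _ h1
  have h3 : nm w' (f y) ≤ nm w' (f y - y) + nm w' y := by
    have := nm_add_le w' (f y - y) y
    rwa [sub_add_cancel] at this
  have h4 : 0 ≤ C * B * t := by positivity
  have h5 : nm w' (f y - y) ≤ C * B * t * (nm w' (f y - y) + nm w' y) := by
    calc nm w' (f y - y) ≤ C * (B * t * nm w' (f y)) := h2
      _ = C * B * t * nm w' (f y) := by ring
      _ ≤ _ := mul_le_mul_of_nonneg_left h3 h4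
  have h6 := nm_nonneg w' (f y - y)
  have h7 : C * B * t * nm w' (f y - y) ≤ 1 / 2 * nm w' (f y - y) :=
    mul_le_mul_of_nonneg_right hs h6
  rw [mul_add] at h5
  linarith

end sigma

end Vale.Agent.P011.H138.Rl
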