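import Vale.Agent.P011.H138.Rl.Emb
import Vale.Agent.P011.E6H.Hyp
import Mathlib.FieldTheory.Galois.Basic
import Mathlib.NumberTheory.NumberField.InfinitePlace.Ramification

/-!
The embeddings over a place of `k`, and the final form of the embedding lemma.
-/

open NormedSpace Filter Topology NumberField

namespace Vale.Agent.P011.H138.Rl

open Vale.Agent.P011.MPQ Vale.Agent.P011.D4 Vale.Agent.P011.D4.Oct Vale.Agent.P011.E6
open Vale.Agent.P011.E6H Vale.Agent.P011.H261.Rl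
open scoped ComplexConjugate

variable {k E : Type} [Field k] [Field E] [Algebra k E] {ρ σ : E ≃ₐ[k] E} {lam : Eˣ}
  {g : Fin 3 → Eˣ} {a b c : kˣ}

section gal

/-- The automorphisms `ρ` and `σ` generate the automorphism group of `E/k`. -/
theorem closure_eq_top [CharZero E] {kap : kˣ} (hS : IsSextic ρ σ kap) :
    Subgroup.closure {ρ, σ} = (⊤ : Subgroup (E ≃ₐ[k] E)) ∧ Nat.card (E ≃ₐ[k] E) = 6 := by
  have hf : FiniteDimensional k E := Module.finite_of_finrank_pos (by rw [hS.h6]; norm_num)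
  obtain ⟨H, hH⟩ : ∃ H : Subgroup (E ≃ₐ[k] E), H = Subgroup.closure {ρ, σ} := ⟨_, rfl⟩
  have hρH : ρ ∈ H := by
    rw [hH]
    exact Subgroup.subset_closure (by simp)
  have hσH : σ ∈ H := by
    rw [hH]
    exact Subgroup.subset_closure (by simp)
  have hρ1 : ρ ≠ 1 := by
    obtain ⟨x, hx⟩ := hS.hρ
    intro h
    exact hx (by rw [h]; rfl)
  have hσ1 : σ ≠ 1 := by
    obtain ⟨x, hk, -, hx⟩ := hS.sq
    intro h
    rw [h] at hx
    have h3 : x = -x := hx
    have h4 : x = 0 := self_eq_neg.1 h3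
    rw [h4] at hk
    have h5 : algebraMap k E (kap : k) = 0 := by
      rw [← hk]
      ring
    exact kap.ne_zero ((map_eq_zero _).1 h5)
  have h3 : orderOf ρ = 3 := by
    have : Fact (Nat.Prime 3) := ⟨Nat.prime_three⟩
    refine orderOf_eq_prime ?_ hρ1
    ext x
    exact hS.ρ3 x
  have h2 : orderOf σ = 2 := by
    have : Fact (Nat.Prime 2) := ⟨Nat.prime_two⟩
    refine orderOf_eq_prime ?_ hσ1
    ext x
    exact hS.σ2 x
  have d3 : 3 ∣ Nat.card H := by
    have := Subgroup.orderOf_dvd_natCard H hρH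
    rwa [h3] at this
  have d2 : 2 ∣ Nat.card H := by
    have := Subgroup.orderOf_dvd_natCard H hσH
    rwa [h2] at this
  have d6 : 6 ∣ Nat.card H := by omega
  have hle : Nat.card (E ≃ₐ[k] E) ≤ 6 := by
    rw [Nat.card_eq_fintype_card, ← hS.h6]
    exact AlgEquiv.card_le
  have hle' : Nat.card H ≤ Nat.card (E ≃ₐ[k] E) := Subgroup.card_le_card_group H
  have hpos : 0 < Nat.card H := Nat.card_pos
  have h6 : Nat.card H = 6 := by
    have := Nat.le_of_dvd hpos d6
    omega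
  have h7 : Nat.card (E ≃ₐ[k] E) = 6 := by omega
  refine ⟨?_, h7⟩
  rw [← hH]
  exact Subgroup.eq_top_of_card_eq H (by rw [h6, h7])

end gal

section dom

variable (ρ σ lam g a b c) in
/-- The elements of the group which are close to the identity at `w` are close to the identity at
`w'`. -/
def Dom (w w' : E →+* ℂ) : Prop :=
  ∀ ε : ℝ, 0 < ε → ∃ δ : ℝ, 0 < δ ∧ ∀ h ∈ G3 ρ σ lam g a b c, Nr w δ h → Nr w' ε h

theorem Dom.refl (w : E →+* ℂ) : Dom ρ σ lam g a b c w w := fun ε hε => ⟨ε, hε, fun _ _ h => h⟩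

theorem Dom.trans {w w' w'' : E →+* ℂ} (h : Dom ρ σ lam g a b c w w')
    (h' : Dom ρ σ lam g a b c w' w'') : Dom ρ σ lam g a b c w w'' := by
  intro ε hε
  obtain ⟨δ, hδ, h1⟩ := h' ε hε
  obtain ⟨δ', hδ', h2⟩ := h δ hδ
  exact ⟨δ', hδ', fun f hf hn => h1 f hf (h2 f hf hn)⟩

theorem Nr.mono {w : E →+* ℂ} {s t : ℝ} (hst : s ≤ t) {f : AlbL E a b c → AlbL E a b c}
    (h : Nr w s f) : Nr w t f := fun x =>
  (h x).trans (mul_le_mul_of_nonneg_right hst (nm_nonneg w x))

theorem Dom.conj {w w' : E →+* ℂ} (h : ∀ x, w' x = conj (w x)) : Dom ρ σ lam g a b c w w' :=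
  fun ε hε => ⟨ε, hε, fun f _ hn x => by rw [nm_conj h, nm_conj h]; exact hn x⟩

theorem Dom.rho {w w' : E →+* ℂ} (h : ∀ x, w' x = w (ρ x)) : Dom ρ σ lam g a b c w w' := by
  intro ε hε
  obtain ⟨C, hC0, hC⟩ := near_rho (lam := lam) (a := a) (b := b) (c := c) h
  refine ⟨ε / C, div_pos hε hC0, fun f hf hn => ?_⟩
  have h1 := hC f hf.2.2 (ε / C) (div_pos hε hC0).le hn
  rwa [mul_div_cancel₀ _ hC0.ne'] at h1

theorem Dom.sigma {w w' : E →+* ℂ} (h : ∀ x, w' x = w (σ x)) : Dom ρ σ lam g a b c w w' := by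
  intro ε hε
  obtain ⟨C, hC0, hC⟩ := near_sigma (g := g) (a := a) (b := b) (c := c) h
  obtain ⟨δ, hδ⟩ : ∃ δ, δ = min (1 / 2 / C) (ε / 2 / C) := ⟨_, rfl⟩
  have hδ0 : 0 < δ := by
    rw [hδ]
    positivity
  have h1 : C * δ ≤ 1 / 2 := by
    have : δ ≤ 1 / 2 / C := by rw [hδ]; exact min_le_left _ _
    rw [le_div_iff₀ hC0] at this
    linarith
  have h2 : C * δ ≤ ε / 2 := by
    have : δ ≤ ε / 2 / C := by rw [hδ]; exact min_le_right _ _
    rw [le_div_iff₀ hC0] at this
    linarith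
  refine ⟨δ, hδ0, fun f hf hn => ?_⟩
  exact (hC f hf.1.2 δ hδ0.le h1 hn).mono (by linarith)

/-- The embeddings over the same embedding of `k`. -/
theorem Dom.tau [CharZero E] {kap : kˣ} (hS : IsSextic ρ σ kap) (τ : E ≃ₐ[k] E) :
    ∀ w w' : E →+* ℂ, (∀ x, w' x = w (τ x)) →
      Dom ρ σ lam g a b c w w' ∧ Dom ρ σ lam g a b c w' w := by
  have hτ : τ ∈ Subgroup.closure {ρ, σ} := by
    rw [(closure_eq_top hS).1]
    exact Subgroup.mem_top τ
  induction hτ using Subgroup.closure_induction with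
  | mem x hx =>
    intro w w' h
    rcases hx with rfl | hx
    · refine ⟨Dom.rho h, ?_⟩
      have h1 : Dom x σ lam g a b c w' (w'.comp (x : E →+* E)) := Dom.rho fun _ => rfl
      refine h1.trans (Dom.rho fun y => ?_)
      change w y = w' (x (x y))
      rw [h, hS.ρ3]
    · have hx' : x = σ := hx
      subst hx'
      refine ⟨Dom.sigma h, Dom.sigma fun y => ?_⟩
      rw [h, hS.σ2]
  | one =>
    intro w w' h
    have : w' = w := by
      ext x
      exact h x
    rw [this]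
    exact ⟨Dom.refl w, Dom.refl w⟩
  | mul x y _ _ hx hy =>
    intro w w' h
    have h1 := hx w (w.comp (x : E →+* E)) fun _ => rfl
    have h2 := hy (w.comp (x : E →+* E)) w' fun z => h z
    exact ⟨h1.1.trans h2.1, h2.2.trans h1.2⟩
  | inv x _ hx =>
    intro w w' h
    have h1 := hx w' w fun y => by
      rw [h]
      exact congrArg w (x.symm_apply_apply y).symm
    exact ⟨h1.2, h1.1⟩

/-- The embeddings over the same place of `k`. -/
theorem Dom.over [CharZero E] {kap : kˣ} (hS : IsSextic ρ σ kap) {w w' : E →+* ℂ}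
    (h : ∀ x : k, ‖w' (algebraMap k E x)‖ = ‖w (algebraMap k E x)‖) :
    Dom ρ σ lam g a b c w w' := by
  have hf : FiniteDimensional k E := Module.finite_of_finrank_pos (by rw [hS.h6]; norm_num)
  have hG : IsGalois k E := IsGalois.of_card_aut_eq_finrank k E (by
    rw [(closure_eq_top hS).2, hS.h6])
  have h1 : InfinitePlace.mk (w'.comp (algebraMap k E)) =
      InfinitePlace.mk (w.comp (algebraMap k E)) := by
    ext x
    exact h x
  rcases InfinitePlace.mk_eq_iff.1 h1 with h2 | h2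
  · obtain ⟨τ, hτ⟩ := ComplexEmbedding.exists_comp_symm_eq_of_comp_eq w w' h2.symm
    refine (Dom.tau hS τ.symm w w' fun x => ?_).1
    rw [← hτ]
    rfl
  · have h3 : (ComplexEmbedding.conjugate w').comp (algebraMap k E) =
        w.comp (algebraMap k E) := h2
    obtain ⟨τ, hτ⟩ := ComplexEmbedding.exists_comp_symm_eq_of_comp_eq w
      (ComplexEmbedding.conjugate w') h3.symm
    refine (Dom.tau hS τ.symm w (ComplexEmbedding.conjugate w') fun x => ?_).1.trans
      (Dom.conj fun x => ?_)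
    · rw [← hτ]
      rfl
    · rw [ComplexEmbedding.conjugate_coe_eq, Complex.conj_conj]

/-- **The embedding lemma.** The elements of the group whose operators are close to the identity at
one embedding over each place are close to the identity at all the embeddings over these places. -/
theorem emb_near [NumberField E] {kap : kˣ} (hS : IsSextic ρ σ kap) {S : Type}
    (φ : S → E →+* ℂ) (ε : ℝ) (hε : 0 < ε) :
    ∃ δ : ℝ, 0 < δ ∧ ∀ h : G3 ρ σ lam g a b c, (∀ v, ‖lc (φ v) h.1 - 1‖ < δ) →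
      ∀ w : E →+* ℂ, (∃ v, ∀ x : k, ‖w (algebraMap k E x)‖ = ‖φ v (algebraMap k E x)‖) →
        ∀ x, nm w (h.1 x - x) ≤ ε * nm w x := by
  classical
  have h1 : ∀ w : E →+* ℂ, ∃ δ : ℝ, 0 < δ ∧ ∀ h : G3 ρ σ lam g a b c,
      (∀ v, ‖lc (φ v) h.1 - 1‖ ≤ δ) →
      (∃ v, ∀ x : k, ‖w (algebraMap k E x)‖ = ‖φ v (algebraMap k E x)‖) → Nr w ε h.1 := by
    intro w
    by_cases hw : ∃ v, ∀ x : k, ‖w (algebraMap k E x)‖ = ‖φ v (algebraMap k E x)‖
    · obtain ⟨v, hv⟩ := hw
      obtain ⟨δ, hδ, h2⟩ := Dom.over (lam := lam) (g := g) (a := a) (b := b) (c := c) hS hv ε hε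
      refine ⟨δ / 54, by positivity, fun h hh _ => h2 h.1 h.2 fun x => ?_⟩
      have h3 := near_of_loc (φ v) (f := h.1) h.2.1.1.1 h.2.1.1.2.1 (hh v) x
      rwa [mul_div_cancel₀ _ (by norm_num : (54 : ℝ) ≠ 0)] at h3
    · exact ⟨1, one_pos, fun h _ hw' => absurd hw' hw⟩
  choose δ hδ h2 using h1
  obtain ⟨w₀, hw₀⟩ := Finite.exists_min δ
  refine ⟨δ w₀, hδ w₀, fun h hh w hw => h2 w h (fun v => ?_) hw⟩
  exact (hh v).le.trans (hw₀ w)

end dom

end Vale.Agent.P011.H138.Rl
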