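import Vale.Agent.P011.H261.Rl.Top
import Vale.Agent.P011.H138.Rl.EmbG

/-!
The embedding lemma in the form which the assembly uses.
-/

namespace Vale.Agent.P011.H138.Rl

open Vale.Agent.P011.E6H Vale.Agent.P011.H261.Rl

/-- The embedding lemma. -/
theorem embNear {k E : Type} [Field k] [NumberField k] [Field E] [NumberField E] [Algebra k E]
    {ρ σ : E ≃ₐ[k] E} {kap a b c : kˣ} {lam : Eˣ} {g : Fin 3 → Eˣ} (hS : IsSextic ρ σ kap) :
    EmbNear ρ σ lam g a b c :=
  fun φ ε hε => emb_near hS φ ε hε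

end Vale.Agent.P011.H138.Rl
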