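import Vale.Agent.P011.H261.Rl.Spec

/-!
The norm of the operators at an embedding and the sum of the absolute values of the coordinates.
-/

open NormedSpace Filter Topology NumberField

namespace Vale.Agent.P011.H138.Rl

open Vale.Agent.P011.MPQ Vale.Agent.P011.D4 Vale.Agent.P011.D4.Oct Vale.Agent.P011.E6
open Vale.Agent.P011.E6H Vale.Agent.P011.H261.Rl
open scoped ComplexConjugate

section nm

variable {F : Type} [Field F] {a b c : Fˣ}

theorem qnm_add_le (w : F →+* ℂ) (x y : Qt a b) : qnm w (x + y) ≤ qnm w x + qnm w y := by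
  have h : ∀ s t : F, ‖w (s + t)‖ ≤ ‖w s‖ + ‖w t‖ := fun s t => by
    rw [map_add]
    exact norm_add_le _ _
  have h1 := h x.re y.re
  have h2 := h x.imI y.imI
  have h3 := h x.imJ y.imJ
  have h4 := h x.imK y.imK
  unfold qnm
  change ‖w (x.re + y.re)‖ + ‖w (x.imI + y.imI)‖ + ‖w (x.imJ + y.imJ)‖ + ‖w (x.imK + y.imK)‖ ≤ _
  linarith

theorem nm_add_le (w : F →+* ℂ) (x y : Alb a b c) : nm w (x + y) ≤ nm w x + nm w y := by
  have h : ∀ s t : F, ‖w (s + t)‖ ≤ ‖w s‖ + ‖w t‖ := fun s t => by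
    rw [map_add]
    exact norm_add_le _ _
  have h1 := h x.d1 y.d1
  have h2 := h x.d2 y.d2
  have h3 := h x.d3 y.d3
  have g1 := qnm_add_le w x.x1.fst y.x1.fst
  have g2 := qnm_add_le w x.x1.snd y.x1.snd
  have g3 := qnm_add_le w x.x2.fst y.x2.fst
  have g4 := qnm_add_le w x.x2.snd y.x2.snd
  have g5 := qnm_add_le w x.x3.fst y.x3.fst
  have g6 := qnm_add_le w x.x3.snd y.x3.snd
  unfold nm
  change ‖w (x.d1 + y.d1)‖ + ‖w (x.d2 + y.d2)‖ + ‖w (x.d3 + y.d3)‖ +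
    (qnm w (x.x1.fst + y.x1.fst) + qnm w (x.x1.snd + y.x1.snd)) +
    (qnm w (x.x2.fst + y.x2.fst) + qnm w (x.x2.snd + y.x2.snd)) +
    (qnm w (x.x3.fst + y.x3.fst) + qnm w (x.x3.snd + y.x3.snd)) ≤ _
  linarith

theorem qnm_smul (w : F →+* ℂ) (t : F) (x : Qt a b) : qnm w (t • x) = ‖w t‖ * qnm w x := by
  unfold qnm
  change ‖w (t * x.re)‖ + ‖w (t * x.imI)‖ + ‖w (t * x.imJ)‖ + ‖w (t * x.imK)‖ = _
  simp only [map_mul, _root_.norm_mul]
  ring

theorem nm_smul (w : F →+* ℂ) (t : F) (x : Alb a b c) : nm w (t • x) = ‖w t‖ * nm w x := by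
  unfold nm
  change ‖w (t * x.d1)‖ + ‖w (t * x.d2)‖ + ‖w (t * x.d3)‖ +
    (qnm w (t • x.x1.fst) + qnm w (t • x.x1.snd)) +
    (qnm w (t • x.x2.fst) + qnm w (t • x.x2.snd)) +
    (qnm w (t • x.x3.fst) + qnm w (t • x.x3.snd)) = _
  simp only [map_mul, _root_.norm_mul, qnm_smul]
  ring

/-- The conjugate embedding gives the same norm. -/
theorem nm_conj {w w' : F →+* ℂ} (h : ∀ x, w' x = conj (w x)) (x : Alb a b c) :
    nm w' x = nm w x := by
  have h1 : ∀ t, ‖w' t‖ = ‖w t‖ := fun t => by rw [h, RCLike.norm_conj]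
  unfold nm qnm
  simp only [h1]

end nm

section cpx

variable {a b c : ℂˣ}

theorem nsq (y : Alb a b c) : ‖y‖ ^ 2 =
    Complex.normSq y.d1 + Complex.normSq y.d2 + Complex.normSq y.d3 +
      2 * ((qn y.x1.fst + qn y.x1.snd) + (qn y.x2.fst + qn y.x2.snd) +
        (qn y.x3.fst + qn y.x3.snd)) := by
  have h1 : ((‖y‖ ^ 2 : ℝ) : ℂ) = inner ℂ y y := by
    rw [inner_self_eq_norm_sq_to_K]
    push_cast
    rfl
  rw [inner_eq, hs_self] at h1
  exact Complex.ofReal_injective h1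

/-- The sum of the absolute values of the coordinates. -/
noncomputable abbrev n1 (y : Alb a b c) : ℝ := nm (RingHom.id ℂ) y

theorem qn_le (x : Qt a b) : qn x ≤ (qnm (RingHom.id ℂ) x) ^ 2 := by
  unfold qn qnm
  simp only [Complex.normSq_eq_norm_sq, RingHom.id_apply]
  have h1 := norm_nonneg x.re
  have h2 := norm_nonneg x.imI
  have h3 := norm_nonneg x.imJ
  have h4 := norm_nonneg x.imK
  nlinarith [mul_nonneg h1 h2, mul_nonneg h1 h3, mul_nonneg h1 h4, mul_nonneg h2 h3,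
    mul_nonneg h2 h4, mul_nonneg h3 h4]

theorem qnm_le {x : Qt a b} {r : ℝ} (hr : 0 ≤ r) (h : qn x ≤ r ^ 2) :
    qnm (RingHom.id ℂ) x ≤ 4 * r := by
  unfold qn at h
  simp only [Complex.normSq_eq_norm_sq] at h
  have g : ∀ z : ℂ, ‖z‖ ^ 2 ≤ r ^ 2 → ‖z‖ ≤ r := fun z hz => by
    exact (sq_le_sq₀ (norm_nonneg z) hr).1 hz
  have h1 := sq_nonneg ‖x.re‖
  have h2 := sq_nonneg ‖x.imI‖
  have h3 := sq_nonneg ‖x.imJ‖
  have h4 := sq_nonneg ‖x.imK‖
  have g1 := g x.re (by linarith)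
  have g2 := g x.imI (by linarith)
  have g3 := g x.imJ (by linarith)
  have g4 := g x.imK (by linarith)
  unfold qnm
  simp only [RingHom.id_apply]
  linarith

theorem n1_le (y : Alb a b c) : n1 y ≤ 27 * ‖y‖ := by
  have h := nsq y
  have h1 := Complex.normSq_nonneg y.d1
  have h2 := Complex.normSq_nonneg y.d2
  have h3 := Complex.normSq_nonneg y.d3
  have g1 := qn_nonneg y.x1.fst
  have g2 := qn_nonneg y.x1.snd
  have g3 := qn_nonneg y.x2.fst
  have g4 := qn_nonneg y.x2.snd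
  have g5 := qn_nonneg y.x3.fst
  have g6 := qn_nonneg y.x3.snd
  have hr := norm_nonneg y
  have g : ∀ z : ℂ, Complex.normSq z ≤ ‖y‖ ^ 2 → ‖z‖ ≤ ‖y‖ := fun z hz => by
    rw [Complex.normSq_eq_norm_sq] at hz
    exact (sq_le_sq₀ (norm_nonneg z) hr).1 hz
  have e1 := g y.d1 (by linarith)
  have e2 := g y.d2 (by linarith)
  have e3 := g y.d3 (by linarith)
  have f1 := qnm_le (x := y.x1.fst) hr (by linarith)
  have f2 := qnm_le (x := y.x1.snd) hr (by linarith)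
  have f3 := qnm_le (x := y.x2.fst) hr (by linarith)
  have f4 := qnm_le (x := y.x2.snd) hr (by linarith)
  have f5 := qnm_le (x := y.x3.fst) hr (by linarith)
  have f6 := qnm_le (x := y.x3.snd) hr (by linarith)
  unfold n1 nm
  simp only [RingHom.id_apply]
  linarith

theorem le_n1 (y : Alb a b c) : ‖y‖ ≤ 2 * n1 y := by
  have h := nsq y
  have hn : 0 ≤ n1 y := nm_nonneg _ y
  refine (sq_le_sq₀ (norm_nonneg y) (by linarith)).1 ?_
  rw [h]
  have g1 := qn_le y.x1.fst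
  have g2 := qn_le y.x1.snd
  have g3 := qn_le y.x2.fst
  have g4 := qn_le y.x2.snd
  have g5 := qn_le y.x3.fst
  have g6 := qn_le y.x3.snd
  have k1 := qnm_nonneg (RingHom.id ℂ) y.x1.fst
  have k2 := qnm_nonneg (RingHom.id ℂ) y.x1.snd
  have k3 := qnm_nonneg (RingHom.id ℂ) y.x2.fst
  have k4 := qnm_nonneg (RingHom.id ℂ) y.x2.snd
  have k5 := qnm_nonneg (RingHom.id ℂ) y.x3.fst
  have k6 := qnm_nonneg (RingHom.id ℂ) y.x3.snd
  have j1 := norm_nonneg y.d1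
  have j2 := norm_nonneg y.d2
  have j3 := norm_nonneg y.d3
  have e : n1 y = ‖y.d1‖ + ‖y.d2‖ + ‖y.d3‖ +
      (qnm (RingHom.id ℂ) y.x1.fst + qnm (RingHom.id ℂ) y.x1.snd) +
      (qnm (RingHom.id ℂ) y.x2.fst + qnm (RingHom.id ℂ) y.x2.snd) +
      (qnm (RingHom.id ℂ) y.x3.fst + qnm (RingHom.id ℂ) y.x3.snd) := rfl
  simp only [Complex.normSq_eq_norm_sq]
  have key : ∀ s t : ℝ, 0 ≤ s → 0 ≤ t → s ^ 2 + t ^ 2 ≤ (s + t) ^ 2 := fun s t hs ht => by
    nlinarith [mul_nonneg hs ht]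
  have s1 := key _ _ j1 j2
  have s2 := key _ _ (add_nonneg j1 j2) j3
  have s3 := key _ _ k1 k2
  have s4 := key _ _ k3 k4
  have s5 := key _ _ k5 k6
  have s6 := key _ _ (add_nonneg (add_nonneg j1 j2) j3) (add_nonneg k1 k2)
  have s7 := key _ _ (add_nonneg (add_nonneg (add_nonneg j1 j2) j3) (add_nonneg k1 k2))
    (add_nonneg k3 k4)
  have s8 := key _ _ (add_nonneg (add_nonneg (add_nonneg (add_nonneg j1 j2) j3)
    (add_nonneg k1 k2)) (add_nonneg k3 k4)) (add_nonneg k5 k6)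
  rw [← e] at s8
  have m1 := sq_nonneg ‖y.d1‖
  have m2 := sq_nonneg ‖y.d2‖
  have m3 := sq_nonneg ‖y.d3‖
  nlinarith

end cpx

section loc

variable {F : Type} [Field F] {a b c : Fˣ}

theorem nm_ev (φ : F →+* ℂ) (x : Alb a b c) : nm φ x = n1 (ev φ x) := rfl

theorem ev_sub (φ : F →+* ℂ) (x y : Alb a b c) : ev φ (x - y) = ev φ x - ev φ y := by
  rw [sub_eq_add_neg, ev_add, sub_eq_add_neg]
  congr 1
  have := ev_smul φ (-1 : F) y
  rwa [neg_one_smul, map_neg, map_one, neg_one_smul] at this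

/-- A map whose operator is close to the identity is close to the identity. -/
theorem near_of_loc (φ : F →+* ℂ) {f : Alb a b c → Alb a b c}
    (ha : ∀ x y, f (x + y) = f x + f y) (hs : ∀ (t : F) x, f (t • x) = t • f x) {δ : ℝ}
    (h : ‖loc φ f - 1‖ ≤ δ) (x : Alb a b c) : nm φ (f x - x) ≤ 54 * δ * nm φ x := by
  have h1 : ev φ (f x - x) = (loc φ f - 1) (ev φ x) := by
    rw [ev_sub, ← loc_ev φ ha hs]
    rfl
  have h2 := n1_le ((loc φ f - 1) (ev φ x))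
  have h3 := (loc φ f - 1).le_opNorm (ev φ x)
  have h4 := le_n1 (ev φ x)
  have h5 : 0 ≤ δ := (norm_nonneg _).trans h
  rw [nm_ev, nm_ev, h1]
  calc n1 ((loc φ f - 1) (ev φ x)) ≤ 27 * ‖(loc φ f - 1) (ev φ x)‖ := h2
    _ ≤ 27 * (‖loc φ f - 1‖ * ‖ev φ x‖) := by linarith
    _ ≤ 27 * (δ * (2 * n1 (ev φ x))) := by
        have h6 : ‖loc φ f - 1‖ * ‖ev φ x‖ ≤ δ * (2 * n1 (ev φ x)) :=
          mul_le_mul h h4 (norm_nonneg _) h5
        linarith
    _ = 54 * δ * n1 (ev φ x) := by ring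

end loc

end Vale.Agent.P011.H138.Rl
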