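import Vale.Agent.P011.H138.Rl.EmbG
import Vale.Agent.P011.H261.Rl.Spec

/-!
An embedding which is neither real nor inert is complex on `k`.
-/

open NumberField

namespace Vale.Agent.P011.H138.Rl

open Vale.Agent.P011.E6H Vale.Agent.P011.H261.Rl

variable {k E : Type} [Field k] [Field E] [Algebra k E] {ρ σ : E ≃ₐ[k] E}

/-- The elements of the automorphism group are the products of powers of `ρ` and `σ`. -/
theorem exists_pow [CharZero E] {kap : kˣ} (hS : IsSextic ρ σ kap) (τ : E ≃ₐ[k] E) :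
    ∃ i j : ℕ, τ = ρ ^ i * σ ^ j := by
  have hc : Commute ρ σ := by
    ext x
    exact hS.comm x
  have hρ3 : ρ ^ 3 = 1 := by
    ext x
    exact hS.ρ3 x
  have hσ2 : σ ^ 2 = 1 := by
    ext x
    exact hS.σ2 x
  have hτ : τ ∈ Subgroup.closure {ρ, σ} := by
    rw [(closure_eq_top hS).1]
    exact Subgroup.mem_top τ
  induction hτ using Subgroup.closure_induction with
  | mem x hx =>
    rcases hx with rfl | hx
    · exact ⟨1, 0, by simp⟩
    · have hx' : x = σ := hx
      exact ⟨0, 1, by simp [hx']⟩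
  | one => exact ⟨0, 0, by simp⟩
  | mul x y _ _ hx hy =>
    obtain ⟨i, j, rfl⟩ := hx
    obtain ⟨i', j', rfl⟩ := hy
    refine ⟨i + i', j + j', ?_⟩
    rw [pow_add, pow_add, mul_assoc, mul_assoc]
    congr 1
    rw [← mul_assoc, ← mul_assoc, (hc.pow_pow i' j).eq]
  | inv x _ hx =>
    obtain ⟨i, j, rfl⟩ := hx
    refine ⟨2 * i, j, ?_⟩
    rw [inv_eq_iff_mul_eq_one, (hc.pow_pow i j).eq, mul_assoc, ← mul_assoc (ρ ^ i), ← pow_add,
      show i + 2 * i = 3 * i by ring, pow_mul, hρ3, one_pow, one_mul, ← pow_add,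
      show j + j = 2 * j by ring, pow_mul, hσ2, one_pow]

/-- An embedding which is neither real nor inert is complex on `k`. -/
theorem real_or [NumberField E] {kap : kˣ} (hS : IsSextic ρ σ kap) (φ : E →+* ℂ)
    (h1 : ¬ InertE σ φ) (h2 : ¬ RealE φ) :
    ∃ x : k, (starRingEnd ℂ) (φ (algebraMap k E x)) ≠ φ (algebraMap k E x) := by
  by_contra h
  push Not at h
  have hf : FiniteDimensional k E := Module.finite_of_finrank_pos (by rw [hS.h6]; norm_num)
  have hG : IsGalois k E := IsGalois.of_card_aut_eq_finrank k E (by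
    rw [(closure_eq_top hS).2, hS.h6])
  have h3 : φ.comp (algebraMap k E) =
      (ComplexEmbedding.conjugate φ).comp (algebraMap k E) := by
    ext x
    exact (h x).symm
  obtain ⟨τ', hτ'⟩ := ComplexEmbedding.exists_comp_symm_eq_of_comp_eq φ
    (ComplexEmbedding.conjugate φ) h3
  obtain ⟨τ, hτ⟩ : ∃ τ : E ≃ₐ[k] E, τ = τ'.symm := ⟨_, rfl⟩
  have h4 : ∀ x, φ (τ x) = (starRingEnd ℂ) (φ x) := by
    intro x
    rw [hτ]
    exact congrArg (fun f : E →+* ℂ => f x) hτ'
  have h5 : τ * τ = 1 := by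
    ext x
    refine φ.injective ?_
    change φ (τ (τ x)) = φ x
    rw [h4, h4, Complex.conj_conj]
  have hρ3 : ρ ^ 3 = 1 := by
    ext x
    exact hS.ρ3 x
  have hσ2 : σ ^ 2 = 1 := by
    ext x
    exact hS.σ2 x
  have hc : Commute ρ σ := by
    ext x
    exact hS.comm x
  obtain ⟨i, j, hij⟩ := exists_pow hS τ
  have h6 : τ = σ ^ j := by
    have h7 : τ = τ ^ 3 := by
      rw [pow_succ, pow_two, h5, one_mul]
    rw [h7, hij, (hc.pow_pow i j).mul_pow, ← pow_mul, ← pow_mul, mul_comm i, pow_mul, hρ3,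
      one_pow, one_mul, show j * 3 = j + 2 * j by ring, pow_add, pow_mul σ 2, hσ2, one_pow,
      mul_one]
  rcases Nat.even_or_odd' j with ⟨m, hm | hm⟩
  · apply h2
    rw [hm, pow_mul, hσ2, one_pow] at h6
    intro x
    rw [← h4, h6]
    rfl
  · apply h1
    rw [hm, pow_succ, pow_mul, hσ2, one_pow, one_mul] at h6
    intro x
    rw [← h6, h4]

end Vale.Agent.P011.H138.Rl
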